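import Vale.Agent.P355.H41.Red

/-! Sums of graph functions over the thirty vectors of a complete set. -/

namespace Vale.Agent.P355.H41

open Finset Matrix Vale.Agent.P355.H138
open Vale.Agent.P355.H349 (Cfg Flat6 VV yy dl)

set_option linter.unusedSectionVars false

variable {P Q : Type} [Fintype P] [Fintype Q] [DecidableEq P] [DecidableEq Q]

/-- the graph does not use the marks. -/
def Unm (n : Option P → Option Q → ℤ) : Prop := (∀ q, n none q = 0) ∧ ∀ p, n p none = 0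

theorem mon_unm (V : Fin 6 → Fin 6 → ℂ) (n : Option P → Option Q → ℤ) (φ : P → Fin 6)
    (ψ : Q → Fin 6) : mon (m7 V) n φ ψ = ∏ p : P, ∏ q : Q, V (φ p) (ψ q) ^ n (some p) (some q) := by
  unfold mon
  rw [Fintype.prod_option]
  have h1 : ∏ q, m7 V (ex φ none) (ex ψ q) ^ n none q = 1 := by
    refine Finset.prod_eq_one fun q _ => ?_
    rw [ex_none, m7_l, one_zpow]
  rw [h1, one_mul]
  refine Finset.prod_congr rfl fun p _ => ?_
  rw [Fintype.prod_option]
  rw [ex_none, m7_r, one_zpow, one_mul]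
  refine Finset.prod_congr rfl fun q _ => ?_
  rw [ex_some, ex_some, m7_cc]

/-- row sums. -/
def rs (n : Option P → Option Q → ℤ) (p : P) : ℤ := ∑ q : Q, n (some p) (some q)

/-- column sums. -/
def cs (n : Option P → Option Q → ℤ) (q : Q) : ℤ := ∑ p : P, n (some p) (some q)

theorem prod_zpow_sum {A : Type} [Fintype A] {z : ℂ} (hz : z ≠ 0) (f : A → ℤ) :
    ∏ a, z ^ f a = z ^ ∑ a, f a := by
  classical
  have h : ∀ s : Finset A, ∏ a ∈ s, z ^ f a = z ^ ∑ a ∈ s, f a := by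
    intro s
    induction s using Finset.induction with
    | empty => simp
    | insert a s ha ih => rw [Finset.prod_insert ha, Finset.sum_insert ha, zpow_add₀ hz, ih]
  exact h _

/-- separation of the gauge factors. -/
theorem mon_gauge {V W : Fin 6 → Fin 6 → ℂ} {X Y : Fin 6 → ℂ}
    (hV : ∀ a b, V a b = star (X a) * W a b * Y b) (hX : ∀ a, star (X a) ≠ 0) (hY : ∀ b, Y b ≠ 0)
    (n : Option P → Option Q → ℤ) (φ : P → Fin 6) (ψ : Q → Fin 6) :
    mon (m7 V) n φ ψ = mon (m7 W) n φ ψ *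
      ((∏ p, star (X (φ p)) ^ rs n p) * ∏ q, Y (ψ q) ^ cs n q) := by
  rw [mon_unm, mon_unm]
  simp only [hV, mul_zpow, Finset.prod_mul_distrib]
  have h1 : ∏ p : P, ∏ q : Q, star (X (φ p)) ^ n (some p) (some q)
      = ∏ p, star (X (φ p)) ^ rs n p := by
    refine Finset.prod_congr rfl fun p _ => ?_
    exact prod_zpow_sum (hX _) _
  have h2 : ∏ p : P, ∏ q : Q, Y (ψ q) ^ n (some p) (some q) = ∏ q, Y (ψ q) ^ cs n q := by
    rw [Finset.prod_comm]
    refine Finset.prod_congr rfl fun q _ => ?_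
    exact prod_zpow_sum (hY _) _
  rw [h1, h2]
  ring

/-- indicator. -/
def ind (v w : P ⊕ Q) : ℤ := if v = w then 1 else 0

/-- value of a vertex. -/
def kt (X Y : Fin 6 → ℂ) (φ : P → Fin 6) (ψ : Q → Fin 6) : P ⊕ Q → ℂ
  | .inl p => X (φ p)
  | .inr q => Y (ψ q)

theorem ind_prod {X Y : Fin 6 → ℂ} (hY : ∀ b, star (Y b) * Y b = 1) (φ : P → Fin 6) (ψ : Q → Fin 6) (v : P ⊕ Q) :
    (∏ p, star (X (φ p)) ^ ind v (.inl p)) * ∏ q, Y (ψ q) ^ (- ind v (.inr q))
      = star (kt X Y φ ψ v) := by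
  rcases v with p0 | q0
  · have h1 : ∏ q, Y (ψ q) ^ (- ind (Sum.inl p0 : P ⊕ Q) (.inr q)) = 1 := by
      refine Finset.prod_eq_one fun q _ => ?_
      simp [ind]
    have h2 : ∏ p, star (X (φ p)) ^ ind (Sum.inl p0 : P ⊕ Q) (.inl p) = star (X (φ p0)) := by
      rw [Fintype.prod_eq_single p0]
      · simp [ind]
      · intro p hp
        have : ¬ p0 = p := fun h => hp h.symm
        simp [ind, this]
    rw [h1, h2, mul_one]
    rfl
  · have h1 : ∏ p, star (X (φ p)) ^ ind (Sum.inr q0 : P ⊕ Q) (.inl p) = 1 := by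
      refine Finset.prod_eq_one fun p _ => ?_
      simp [ind]
    have h2 : ∏ q, Y (ψ q) ^ (- ind (Sum.inr q0 : P ⊕ Q) (.inr q)) = star (Y (ψ q0)) := by
      rw [Fintype.prod_eq_single q0]
      · have : (Y (ψ q0))⁻¹ = star (Y (ψ q0)) := by
          rw [inv_eq_of_mul_eq_one_right]
          rw [mul_comm]; exact hY _
        simp [ind, this]
      · intro q hq
        have : ¬ q0 = q := fun h => hq h.symm
        simp [ind, this]
    rw [h1, h2, one_mul]
    rfl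

/-- `k₁, k₂` are the kets and `r₁, r₂` the bras of the graph. -/
structure Bal (n : Option P → Option Q → ℤ) (k1 k2 r1 r2 : P ⊕ Q) : Prop where
  row : ∀ p, rs n p = ind r1 (.inl p) + ind r2 (.inl p) - ind k1 (.inl p) - ind k2 (.inl p)
  col : ∀ q, cs n q = ind k1 (.inr q) + ind k2 (.inr q) - ind r1 (.inr q) - ind r2 (.inr q)

/-- the same with one ket and one bra. -/
structure Bal1 (n : Option P → Option Q → ℤ) (k r : P ⊕ Q) : Prop where
  row : ∀ p, rs n p = ind r (.inl p) - ind k (.inl p)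
  col : ∀ q, cs n q = ind k (.inr q) - ind r (.inr q)

/-- level zero. -/
structure Bal0 (n : Option P → Option Q → ℤ) : Prop where
  row : ∀ p, rs n p = 0
  col : ∀ q, cs n q = 0

theorem star_ne {z : ℂ} (h : star z * z = 1) : star z ≠ 0 := by
  intro h0; rw [h0, zero_mul] at h; exact zero_ne_one h

theorem ne_of_unit {z : ℂ} (h : star z * z = 1) : z ≠ 0 := by
  intro h0; rw [h0, mul_zero] at h; exact zero_ne_one h

theorem Bal.prod {n : Option P → Option Q → ℤ} {k1 k2 r1 r2 : P ⊕ Q} (hn : Bal n k1 k2 r1 r2)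
    {X Y : Fin 6 → ℂ} (hX : ∀ a, star (X a) * X a = 1)
    (hY : ∀ b, star (Y b) * Y b = 1) (φ : P → Fin 6) (ψ : Q → Fin 6) :
    (∏ p, star (X (φ p)) ^ rs n p) * ∏ q, Y (ψ q) ^ cs n q
      = kt X Y φ ψ k1 * kt X Y φ ψ k2 * (star (kt X Y φ ψ r1) * star (kt X Y φ ψ r2)) := by
  have hk : ∀ v, star (kt X Y φ ψ v) * kt X Y φ ψ v = 1 := by
    intro v; rcases v with p | q
    · exact hX _
    · exact hY _
  have e1 := ind_prod (X := X) hY φ ψ k1
  have e2 := ind_prod (X := X) hY φ ψ k2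
  have e3 := ind_prod (X := X) hY φ ψ r1
  have e4 := ind_prod (X := X) hY φ ψ r2
  have a1 : ∏ p, star (X (φ p)) ^ rs n p
      = (∏ p, star (X (φ p)) ^ ind r1 (.inl p)) * (∏ p, star (X (φ p)) ^ ind r2 (.inl p)) *
        (∏ p, star (X (φ p)) ^ ind k1 (.inl p))⁻¹ * (∏ p, star (X (φ p)) ^ ind k2 (.inl p))⁻¹ := by
    rw [← Finset.prod_inv_distrib, ← Finset.prod_inv_distrib, ← Finset.prod_mul_distrib,
      ← Finset.prod_mul_distrib, ← Finset.prod_mul_distrib]
    refine Finset.prod_congr rfl fun p _ => ?_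
    have hz := star_ne (hX (φ p))
    rw [hn.row, zpow_sub₀ hz, zpow_sub₀ hz, zpow_add₀ hz]
    simp only [div_eq_mul_inv]
  have a2 : ∏ q, Y (ψ q) ^ cs n q
      = (∏ q, Y (ψ q) ^ (-ind r1 (.inr q))) * (∏ q, Y (ψ q) ^ (-ind r2 (.inr q))) *
        (∏ q, Y (ψ q) ^ (-ind k1 (.inr q)))⁻¹ * (∏ q, Y (ψ q) ^ (-ind k2 (.inr q)))⁻¹ := by
    rw [← Finset.prod_inv_distrib, ← Finset.prod_inv_distrib, ← Finset.prod_mul_distrib,
      ← Finset.prod_mul_distrib, ← Finset.prod_mul_distrib]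
    refine Finset.prod_congr rfl fun q _ => ?_
    have hz := ne_of_unit (hY (ψ q))
    rw [hn.col]
    rw [← zpow_neg, ← zpow_neg, ← zpow_add₀ hz, ← zpow_add₀ hz, ← zpow_add₀ hz]
    congr 1
    ring
  have i1 : (star (kt X Y φ ψ k1))⁻¹ = kt X Y φ ψ k1 := by
    rw [inv_eq_of_mul_eq_one_right (hk k1)]
  have i2 : (star (kt X Y φ ψ k2))⁻¹ = kt X Y φ ψ k2 := by
    rw [inv_eq_of_mul_eq_one_right (hk k2)]
  rw [a1, a2]
  calc _ = ((∏ p, star (X (φ p)) ^ ind r1 (.inl p)) * (∏ q, Y (ψ q) ^ (-ind r1 (.inr q)))) *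
        ((∏ p, star (X (φ p)) ^ ind r2 (.inl p)) * (∏ q, Y (ψ q) ^ (-ind r2 (.inr q)))) *
        (((∏ p, star (X (φ p)) ^ ind k1 (.inl p)) * (∏ q, Y (ψ q) ^ (-ind k1 (.inr q))))⁻¹ *
        ((∏ p, star (X (φ p)) ^ ind k2 (.inl p)) * (∏ q, Y (ψ q) ^ (-ind k2 (.inr q))))⁻¹) := by
        rw [mul_inv, mul_inv]; ring
    _ = _ := by rw [e1, e2, e3, e4, i1, i2]; ring

theorem Bal1.prod {n : Option P → Option Q → ℤ} {k r : P ⊕ Q} (hn : Bal1 n k r)
    {X Y : Fin 6 → ℂ} (hX : ∀ a, star (X a) * X a = 1)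
    (hY : ∀ b, star (Y b) * Y b = 1) (φ : P → Fin 6) (ψ : Q → Fin 6) :
    (∏ p, star (X (φ p)) ^ rs n p) * ∏ q, Y (ψ q) ^ cs n q
      = kt X Y φ ψ k * star (kt X Y φ ψ r) := by
  have hb : Bal n k k r k := by
    refine ⟨fun p => ?_, fun q => ?_⟩
    · rw [hn.row]; ring
    · rw [hn.col]; ring
  have hk : star (kt X Y φ ψ k) * kt X Y φ ψ k = 1 := by
    rcases k with p | q
    · exact hX _
    · exact hY _
  rw [hb.prod hX hY]
  linear_combination (kt X Y φ ψ k * star (kt X Y φ ψ r)) * hk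

theorem Bal0.prod {n : Option P → Option Q → ℤ} (hn : Bal0 n)
    {X Y : Fin 6 → ℂ} (φ : P → Fin 6) (ψ : Q → Fin 6) :
    (∏ p, star (X (φ p)) ^ rs n p) * ∏ q, Y (ψ q) ^ cs n q = 1 := by
  simp only [hn.row, hn.col, zpow_zero, Finset.prod_const_one, mul_one]

/-! ### The configuration -/

variable {ι : Type} [Fintype ι] {U : M6} {x : ι → Fin 6 → ℂ}

theorem sc_VV (c : ι) (a b : Fin 6) :
    sc (VV U x c) a b = star (s6 * x c a) * sc U a b * (s6 * yy U x c b) := by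
  unfold sc
  rw [H349.VV_apply, star_mul', star_s6]
  linear_combination (-(s6 * star (x c a) * U a b * yy U x c b)) * s6_sq

theorem unitX (H : Cfg U x) (c : ι) (a : Fin 6) :
    star (s6 * x c a) * (s6 * x c a) = 1 := by
  rw [star_mul', star_s6]
  linear_combination (star (x c a) * x c a) * s6_sq + 6 * H.xflat c a

theorem unitY (H : Cfg U x) (c : ι) (b : Fin 6) :
    star (s6 * yy U x c b) * (s6 * yy U x c b) = 1 := by
  rw [star_mul', star_s6]
  linear_combination (star (yy U x c b) * yy U x c b) * s6_sq + 6 * H.yflat c b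

/-- the coefficient vector of a vertex. -/
noncomputable def co (U : M6) (φ : P → Fin 6) (ψ : Q → Fin 6) : P ⊕ Q → Fin 6 → ℂ
  | .inl p => dl (φ p)
  | .inr q => fun r => star (U r (ψ q))

theorem kt_co (c : ι) (φ : P → Fin 6) (ψ : Q → Fin 6) (v : P ⊕ Q) :
    kt (fun a => s6 * x c a) (fun b => s6 * yy U x c b) φ ψ v
      = s6 * ∑ r, co U φ ψ v r * x c r := by
  rcases v with p | q
  · simp only [kt, co, H349.sum_dl]
  · simp only [kt, co]; rfl

theorem star_kt_co (c : ι) (φ : P → Fin 6) (ψ : Q → Fin 6) (v : P ⊕ Q) :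
    star (kt (fun a => s6 * x c a) (fun b => s6 * yy U x c b) φ ψ v)
      = s6 * ∑ r, star (co U φ ψ v r) * star (x c r) := by
  rw [kt_co, star_mul', star_s6, star_sum]
  simp only [star_mul']

theorem gb_co (H : Cfg U x) (φ : P → Fin 6) (ψ : Q → Fin 6) (v w : P ⊕ Q) :
    gb (sc U) φ ψ v w = 6 * ∑ r, co U φ ψ v r * star (co U φ ψ w r) := by
  rcases v with p | q <;> rcases w with p' | q'
  · simp only [gb, co, H349.star_dl, H349.sum_dl]
    rw [H349.dl_symm]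
    unfold dl
    split_ifs <;> simp
  · simp only [gb, co, H349.sum_dl, star_star]
    unfold sc
    linear_combination (U (φ p) (ψ q')) * s6_sq
  · simp only [gb, co, H349.star_dl]
    unfold sc
    rw [H349.sum_dl' , star_mul', star_s6]
    linear_combination (star (U (φ p') (ψ q))) * s6_sq
  · simp only [gb, co, star_star, H.cols]
    unfold dl
    split_ifs <;> simp

theorem co_updP (φ : P → Fin 6) (ψ : Q → Fin 6) (ps : P) (a : Fin 6) (v : P ⊕ Q)
    (hv : v ≠ .inl ps) : co U (Function.update φ ps a) ψ v = co U φ ψ v := by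
  rcases v with p | q
  · have : p ≠ ps := fun h => hv (by rw [h])
    simp only [co, Function.update_of_ne this]
  · rfl

theorem co_updQ (φ : P → Fin 6) (ψ : Q → Fin 6) (qs : Q) (b : Fin 6) (v : P ⊕ Q)
    (hv : v ≠ .inr qs) : co U φ (Function.update ψ qs b) v = co U φ ψ v := by
  rcases v with p | q
  · rfl
  · have : q ≠ qs := fun h => hv (by rw [h])
    simp only [co, Function.update_of_ne this]

theorem gb_Pl (H : Cfg U x) (φ : P → Fin 6) (ψ : Q → Fin 6) (ps : P) (a : Fin 6) (v : P ⊕ Q)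
    (hv : v ≠ .inl ps) :
    gb (sc U) (Function.update φ ps a) ψ v (.inl ps) = 6 * co U φ ψ v a := by
  rw [gb_co H, co_updP φ ψ ps a v hv]
  simp only [co, Function.update_self, H349.star_dl, H349.sum_dl']

theorem gb_Pr (H : Cfg U x) (φ : P → Fin 6) (ψ : Q → Fin 6) (ps : P) (a : Fin 6) (v : P ⊕ Q)
    (hv : v ≠ .inl ps) :
    gb (sc U) (Function.update φ ps a) ψ (.inl ps) v = 6 * star (co U φ ψ v a) := by
  rw [gb_co H, co_updP φ ψ ps a v hv]
  simp only [co, Function.update_self, H349.sum_dl]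

theorem gb_Ql (H : Cfg U x) (φ : P → Fin 6) (ψ : Q → Fin 6) (qs : Q) (b : Fin 6) (v : P ⊕ Q)
    (hv : v ≠ .inr qs) :
    gb (sc U) φ (Function.update ψ qs b) v (.inr qs) = 6 * ∑ r, co U φ ψ v r * U r b := by
  rw [gb_co H, co_updQ φ ψ qs b v hv]
  simp only [co, Function.update_self, star_star]

theorem gb_Qr (H : Cfg U x) (φ : P → Fin 6) (ψ : Q → Fin 6) (qs : Q) (b : Fin 6) (v : P ⊕ Q)
    (hv : v ≠ .inr qs) :
    gb (sc U) φ (Function.update ψ qs b) (.inr qs) v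
      = 6 * ∑ r, star (co U φ ψ v r) * star (U r b) := by
  rw [gb_co H, co_updQ φ ψ qs b v hv]
  simp only [co, Function.update_self]
  congr 1
  exact Finset.sum_congr rfl fun r _ => by ring

/-- the second moment in bracket form. -/
theorem sum_kt (H : Cfg U x) (φ : P → Fin 6) (ψ : Q → Fin 6) (k1 k2 r1 r2 : P ⊕ Q) (ps : P)
    (qs : Q) (h1 : k1 ≠ .inl ps) (h2 : k2 ≠ .inl ps) (h3 : r1 ≠ .inl ps) (h4 : r2 ≠ .inl ps)
    (g1 : k1 ≠ .inr qs) (g2 : k2 ≠ .inr qs) (g3 : r1 ≠ .inr qs) (g4 : r2 ≠ .inr qs) :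
    ∑ c, (kt (fun a => s6 * x c a) (fun b => s6 * yy U x c b) φ ψ k1 *
        kt (fun a => s6 * x c a) (fun b => s6 * yy U x c b) φ ψ k2 *
        (star (kt (fun a => s6 * x c a) (fun b => s6 * yy U x c b) φ ψ r1) *
        star (kt (fun a => s6 * x c a) (fun b => s6 * yy U x c b) φ ψ r2)))
      = gb (sc U) φ ψ k1 r1 * gb (sc U) φ ψ k2 r2 + gb (sc U) φ ψ k1 r2 * gb (sc U) φ ψ k2 r1
        - (1 / 36) * ∑ a, gb (sc U) (Function.update φ ps a) ψ k1 (.inl ps) *
            gb (sc U) (Function.update φ ps a) ψ k2 (.inl ps) *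
            (gb (sc U) (Function.update φ ps a) ψ (.inl ps) r1 *
            gb (sc U) (Function.update φ ps a) ψ (.inl ps) r2)
        - (1 / 36) * ∑ b, gb (sc U) φ (Function.update ψ qs b) k1 (.inr qs) *
            gb (sc U) φ (Function.update ψ qs b) k2 (.inr qs) *
            (gb (sc U) φ (Function.update ψ qs b) (.inr qs) r1 *
            gb (sc U) φ (Function.update ψ qs b) (.inr qs) r2) := by
  have hg := H.gen2 (co U φ ψ k1) (co U φ ψ k2) (fun r => star (co U φ ψ r1 r))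
    (fun r => star (co U φ ψ r2 r))
  simp only [gb_Pl H _ _ _ _ _ h1, gb_Pl H _ _ _ _ _ h2, gb_Pr H _ _ _ _ _ h3,
    gb_Pr H _ _ _ _ _ h4, gb_Ql H _ _ _ _ _ g1, gb_Ql H _ _ _ _ _ g2, gb_Qr H _ _ _ _ _ g3,
    gb_Qr H _ _ _ _ _ g4, gb_co H φ ψ]
  simp only [star_kt_co]
  simp only [kt_co]
  have e : ∀ c, (s6 * ∑ r, co U φ ψ k1 r * x c r) * (s6 * ∑ r, co U φ ψ k2 r * x c r) *
      ((s6 * ∑ r, star (co U φ ψ r1 r) * star (x c r)) *
        (s6 * ∑ r, star (co U φ ψ r2 r) * star (x c r)))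
      = 36 * ((∑ r, co U φ ψ k1 r * x c r) * (∑ r, co U φ ψ k2 r * x c r) *
      ((∑ r, star (co U φ ψ r1 r) * star (x c r)) *
        (∑ r, star (co U φ ψ r2 r) * star (x c r)))) := by
    intro c
    have hs := s6_sq
    set A := ∑ r, co U φ ψ k1 r * x c r
    set B := ∑ r, co U φ ψ k2 r * x c r
    set C := ∑ r, star (co U φ ψ r1 r) * star (x c r)
    set D := ∑ r, star (co U φ ψ r2 r) * star (x c r)
    linear_combination (A * B * C * D * (s6 * s6) + 6 * (A * B * C * D)) * hs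
  simp only [e, ← Finset.mul_sum]
  rw [hg]
  have f1 : ∑ a, 6 * co U φ ψ k1 a * (6 * co U φ ψ k2 a) *
      (6 * star (co U φ ψ r1 a) * (6 * star (co U φ ψ r2 a)))
      = 1296 * ∑ k, co U φ ψ k1 k * co U φ ψ k2 k * (star (co U φ ψ r1 k) *
        star (co U φ ψ r2 k)) := by
    rw [Finset.mul_sum]
    exact Finset.sum_congr rfl fun k _ => by ring
  have f2 : ∑ b, (6 * ∑ r, co U φ ψ k1 r * U r b) * (6 * ∑ r, co U φ ψ k2 r * U r b) *
      ((6 * ∑ r, star (co U φ ψ r1 r) * star (U r b)) *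
        (6 * ∑ r, star (co U φ ψ r2 r) * star (U r b)))
      = 1296 * ∑ b, (∑ r, co U φ ψ k1 r * U r b) * (∑ r, co U φ ψ k2 r * U r b) *
      ((∑ r, star (co U φ ψ r1 r) * star (U r b)) *
        (∑ r, star (co U φ ψ r2 r) * star (U r b))) := by
    rw [Finset.mul_sum]
    exact Finset.sum_congr rfl fun k _ => by ring
  rw [f1, f2]
  ring

theorem sum_kt1 (H : Cfg U x) (φ : P → Fin 6) (ψ : Q → Fin 6) (k r : P ⊕ Q) :
    ∑ c, (kt (fun a => s6 * x c a) (fun b => s6 * yy U x c b) φ ψ k *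
        star (kt (fun a => s6 * x c a) (fun b => s6 * yy U x c b) φ ψ r))
      = 5 * gb (sc U) φ ψ k r := by
  have hg := H.gen1 (co U φ ψ k) (fun s => star (co U φ ψ r s))
  simp only [star_kt_co]
  simp only [kt_co, gb_co H φ ψ]
  have e : ∀ c, (s6 * ∑ s, co U φ ψ k s * x c s) * (s6 * ∑ s, star (co U φ ψ r s) * star (x c s))
      = 6 * ((∑ s, co U φ ψ k s * x c s) * (∑ s, star (co U φ ψ r s) * star (x c s))) := by
    intro c
    linear_combination ((∑ s, co U φ ψ k s * x c s) *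
      (∑ s, star (co U φ ψ r s) * star (x c s))) * s6_sq
  simp only [e, ← Finset.mul_sum]
  rw [hg]
  ring

theorem av_sum {κ : Type} [Fintype κ] (F : κ → (P → Fin 6) → (Q → Fin 6) → ℂ) :
    ∑ c, av (F c) = av (fun φ ψ => ∑ c, F c φ ψ) := by
  unfold av
  rw [← Finset.mul_sum]
  congr 1
  rw [Finset.sum_comm]
  exact Finset.sum_congr rfl fun φ _ => Finset.sum_comm

theorem sum_update_all (F : (P → Fin 6) → ℂ) (ps : P) :
    ∑ φ : P → Fin 6, ∑ a, F (Function.update φ ps a) = 6 * ∑ φ, F φ := by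
  have h1 : ∀ φ : P → Fin 6, ∑ a, F (Function.update φ ps a)
      = ∑ t, F (Function.update φ ps (φ ps + t)) := by
    intro φ
    exact (Equiv.sum_comp (Equiv.addLeft (φ ps)) (fun a => F (Function.update φ ps a))).symm
  simp only [h1]
  rw [Finset.sum_comm]
  simp only [sum_update_eq]
  simp

theorem av_updP (n : Option P → Option Q → ℤ) (W : Fin 6 → Fin 6 → ℂ) (ps : P)
    (hps : ∀ q, n (some ps) q = 0) (G : (P → Fin 6) → (Q → Fin 6) → ℂ) :
    av (fun φ ψ => mon (m7 W) n φ ψ * ∑ a, G (Function.update φ ps a) ψ)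
      = 6 * av (fun φ ψ => mon (m7 W) n φ ψ * G φ ψ) := by
  unfold av
  rw [mul_left_comm]
  congr 1
  rw [Finset.sum_comm, Finset.sum_comm (f := fun φ ψ => mon (m7 W) n φ ψ * G φ ψ),
    Finset.mul_sum]
  refine Finset.sum_congr rfl fun ψ _ => ?_
  rw [← sum_update_all (fun φ => mon (m7 W) n φ ψ * G φ ψ) ps]
  refine Finset.sum_congr rfl fun φ _ => ?_
  rw [Finset.mul_sum]
  refine Finset.sum_congr rfl fun a _ => ?_
  rw [mon_update_row _ _ ps hps]

theorem av_updQ (n : Option P → Option Q → ℤ) (W : Fin 6 → Fin 6 → ℂ) (qs : Q)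
    (hqs : ∀ p, n p (some qs) = 0) (G : (P → Fin 6) → (Q → Fin 6) → ℂ) :
    av (fun φ ψ => mon (m7 W) n φ ψ * ∑ b, G φ (Function.update ψ qs b))
      = 6 * av (fun φ ψ => mon (m7 W) n φ ψ * G φ ψ) := by
  unfold av
  rw [mul_left_comm]
  congr 1
  rw [Finset.mul_sum]
  refine Finset.sum_congr rfl fun φ _ => ?_
  rw [← sum_update_all (fun ψ => mon (m7 W) n φ ψ * G φ ψ) qs]
  refine Finset.sum_congr rfl fun ψ _ => ?_
  beta_reduce
  rw [Finset.mul_sum]
  refine Finset.sum_congr rfl fun a _ => ?_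
  rw [mon_update_col _ _ qs hqs]

theorem uni_U (H : Cfg U x) : Uni (m7 (sc U)) := by
  intro r s
  refine Fin.lastCases ?_ (fun a => ?_) r
  · show m7 (sc U) 6 s * star (m7 (sc U) 6 s) = 1
    simp
  · refine Fin.lastCases ?_ (fun b => ?_) s
    · show m7 (sc U) _ 6 * star (m7 (sc U) _ 6) = 1
      simp
    · rw [m7_cc]
      unfold sc
      rw [star_mul', star_s6]
      linear_combination (star (U a b) * U a b) * s6_sq + 6 * H.flat a b

/-- the gauge form of the monomials. -/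
theorem mon_VV (H : Cfg U x) (c : ι) (n : Option P → Option Q → ℤ) (φ : P → Fin 6)
    (ψ : Q → Fin 6) : mon (m7 (sc (VV U x c))) n φ ψ = mon (m7 (sc U)) n φ ψ *
      ((∏ p, star (s6 * x c (φ p)) ^ rs n p) * ∏ q, (s6 * yy U x c (ψ q)) ^ cs n q) :=
  mon_gauge (X := fun a => s6 * x c a) (Y := fun b => s6 * yy U x c b) (fun a b => sc_VV c a b)
    (fun a => star_ne (unitX H c a)) (fun b => ne_of_unit (unitY H c b)) n φ ψ

/-- **level zero**: the function does not depend on the vector. -/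
theorem gv_level0 (H : Cfg U x) (c : ι) (n : Option P → Option Q → ℤ) (hn : Bal0 n) :
    gv (m7 (sc (VV U x c))) n = gv (m7 (sc U)) n := by
  rw [gv_av, gv_av]
  refine av_congr fun φ ψ => ?_
  rw [mon_VV H, hn.prod (X := fun a => s6 * x c a) (Y := fun b => s6 * yy U x c b), mul_one]

/-- **level one**. -/
theorem sum_gv1 (H : Cfg U x) (n : Option P → Option Q → ℤ) (k r : P ⊕ Q) (hn : Bal1 n k r) :
    ∑ c, gv (m7 (sc (VV U x c))) n
      = 5 * (s6 ^ (red id [(k, r)] n).1 * gv (m7 (sc U)) (red id [(k, r)] n).2) := by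
  simp only [gv_av (m7 (sc (VV U x _))) n]
  rw [av_sum, ← red_spec (uni_U H), ← av_smul]
  refine av_congr fun φ ψ => ?_
  have e : ∀ c, mon (m7 (sc (VV U x c))) n φ ψ = mon (m7 (sc U)) n φ ψ *
      (kt (fun a => s6 * x c a) (fun b => s6 * yy U x c b) φ ψ k *
        star (kt (fun a => s6 * x c a) (fun b => s6 * yy U x c b) φ ψ r)) := by
    intro c
    rw [mon_VV H, ← hn.prod (X := fun a => s6 * x c a) (Y := fun b => s6 * yy U x c b)
      (fun a => unitX H c a) (fun b => unitY H c b) φ ψ]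
  simp only [e]
  rw [← Finset.mul_sum, sum_kt1 H, pb_cons, pb_nil]
  simp only [id]
  ring

/-- **level two**. -/
theorem sum_gv2 (H : Cfg U x) (n : Option P → Option Q → ℤ) (k1 k2 r1 r2 : P ⊕ Q)
    (hn : Bal n k1 k2 r1 r2) (ps : P) (qs : Q) (hps : ∀ q, n (some ps) q = 0)
    (hqs : ∀ p, n p (some qs) = 0)
    (h1 : k1 ≠ .inl ps) (h2 : k2 ≠ .inl ps) (h3 : r1 ≠ .inl ps) (h4 : r2 ≠ .inl ps)
    (g1 : k1 ≠ .inr qs) (g2 : k2 ≠ .inr qs) (g3 : r1 ≠ .inr qs) (g4 : r2 ≠ .inr qs) :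
    ∑ c, gv (m7 (sc (VV U x c))) n
      = s6 ^ (red id [(k1, r1), (k2, r2)] n).1 *
          gv (m7 (sc U)) (red id [(k1, r1), (k2, r2)] n).2
        + s6 ^ (red id [(k1, r2), (k2, r1)] n).1 *
          gv (m7 (sc U)) (red id [(k1, r2), (k2, r1)] n).2
        - (1 / 6) * (s6 ^ (red id [(k1, .inl ps), (k2, .inl ps), (.inl ps, r1), (.inl ps, r2)] n).1 *
          gv (m7 (sc U)) (red id [(k1, .inl ps), (k2, .inl ps), (.inl ps, r1), (.inl ps, r2)] n).2)
        - (1 / 6) * (s6 ^ (red id [(k1, .inr qs), (k2, .inr qs), (.inr qs, r1), (.inr qs, r2)] n).1 *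
          gv (m7 (sc U)) (red id [(k1, .inr qs), (k2, .inr qs), (.inr qs, r1), (.inr qs, r2)] n).2)
    := by
  simp only [gv_av (m7 (sc (VV U x _))) n]
  rw [av_sum, ← red_spec (uni_U H), ← red_spec (uni_U H), ← red_spec (uni_U H),
    ← red_spec (uni_U H)]
  have hP := av_updP n (sc U) ps hps (fun φ ψ => gb (sc U) φ ψ k1 (.inl ps) *
    gb (sc U) φ ψ k2 (.inl ps) * (gb (sc U) φ ψ (.inl ps) r1 * gb (sc U) φ ψ (.inl ps) r2))
  have hQ := av_updQ n (sc U) qs hqs (fun φ ψ => gb (sc U) φ ψ k1 (.inr qs) *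
    gb (sc U) φ ψ k2 (.inr qs) * (gb (sc U) φ ψ (.inr qs) r1 * gb (sc U) φ ψ (.inr qs) r2))
  have eP : av (fun φ ψ => mon (m7 (sc U)) n φ ψ * pb (sc U) id
      [(k1, .inl ps), (k2, .inl ps), (.inl ps, r1), (.inl ps, r2)] φ ψ)
      = av (fun φ ψ => mon (m7 (sc U)) n φ ψ * (gb (sc U) φ ψ k1 (.inl ps) *
    gb (sc U) φ ψ k2 (.inl ps) * (gb (sc U) φ ψ (.inl ps) r1 * gb (sc U) φ ψ (.inl ps) r2))) := by
    refine av_congr fun φ ψ => ?_
    simp only [pb_cons, pb_nil, id]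
    ring
  have eQ : av (fun φ ψ => mon (m7 (sc U)) n φ ψ * pb (sc U) id
      [(k1, .inr qs), (k2, .inr qs), (.inr qs, r1), (.inr qs, r2)] φ ψ)
      = av (fun φ ψ => mon (m7 (sc U)) n φ ψ * (gb (sc U) φ ψ k1 (.inr qs) *
    gb (sc U) φ ψ k2 (.inr qs) * (gb (sc U) φ ψ (.inr qs) r1 * gb (sc U) φ ψ (.inr qs) r2))) := by
    refine av_congr fun φ ψ => ?_
    simp only [pb_cons, pb_nil, id]
    ring
  rw [eP, eQ]
  have eP' : (1 / 6 : ℂ) * av (fun φ ψ => mon (m7 (sc U)) n φ ψ * (gb (sc U) φ ψ k1 (.inl ps) *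
    gb (sc U) φ ψ k2 (.inl ps) * (gb (sc U) φ ψ (.inl ps) r1 * gb (sc U) φ ψ (.inl ps) r2)))
    = (1 / 36) * av (fun φ ψ => mon (m7 (sc U)) n φ ψ * ∑ a,
      (gb (sc U) (Function.update φ ps a) ψ k1 (.inl ps) *
      gb (sc U) (Function.update φ ps a) ψ k2 (.inl ps) *
      (gb (sc U) (Function.update φ ps a) ψ (.inl ps) r1 *
        gb (sc U) (Function.update φ ps a) ψ (.inl ps) r2))) := by
    rw [hP]; ring
  have eQ' : (1 / 6 : ℂ) * av (fun φ ψ => mon (m7 (sc U)) n φ ψ * (gb (sc U) φ ψ k1 (.inr qs) *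
    gb (sc U) φ ψ k2 (.inr qs) * (gb (sc U) φ ψ (.inr qs) r1 * gb (sc U) φ ψ (.inr qs) r2)))
    = (1 / 36) * av (fun φ ψ => mon (m7 (sc U)) n φ ψ * ∑ b,
      (gb (sc U) φ (Function.update ψ qs b) k1 (.inr qs) *
      gb (sc U) φ (Function.update ψ qs b) k2 (.inr qs) *
      (gb (sc U) φ (Function.update ψ qs b) (.inr qs) r1 *
        gb (sc U) φ (Function.update ψ qs b) (.inr qs) r2))) := by
    rw [hQ]; ring
  rw [eP', eQ', ← av_smul, ← av_smul, ← av_add, ← av_sub, ← av_sub]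
  refine av_congr fun φ ψ => ?_
  have e : ∀ c, mon (m7 (sc (VV U x c))) n φ ψ = mon (m7 (sc U)) n φ ψ *
      (kt (fun a => s6 * x c a) (fun b => s6 * yy U x c b) φ ψ k1 *
        kt (fun a => s6 * x c a) (fun b => s6 * yy U x c b) φ ψ k2 *
        (star (kt (fun a => s6 * x c a) (fun b => s6 * yy U x c b) φ ψ r1) *
        star (kt (fun a => s6 * x c a) (fun b => s6 * yy U x c b) φ ψ r2))) := by
    intro c
    rw [mon_VV H, ← hn.prod (X := fun a => s6 * x c a) (Y := fun b => s6 * yy U x c b)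
      (fun a => unitX H c a) (fun b => unitY H c b) φ ψ]
  simp only [e]
  rw [← Finset.mul_sum, sum_kt H φ ψ k1 k2 r1 r2 ps qs h1 h2 h3 h4 g1 g2 g3 g4]
  simp only [pb_cons, pb_nil, id]
  ring

end Vale.Agent.P355.H41
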