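import Vale.Agent.P355.H41.Seven

/-! Contraction of brackets in graph functions. -/

namespace Vale.Agent.P355.H41

open Finset Matrix Vale.Agent.P355.H138
open Vale.Agent.P355.H349 (Cfg Flat6 VV yy dl)

set_option linter.unusedSectionVars false

variable {P Q : Type} [Fintype P] [Fintype Q] [DecidableEq P] [DecidableEq Q]

/-- normalised average over all labellings. -/
noncomputable def av (F : (P → Fin 6) → (Q → Fin 6) → ℂ) : ℂ :=
  (6⁻¹ : ℂ) ^ (Fintype.card P + Fintype.card Q) * ∑ φ, ∑ ψ, F φ ψ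

theorem gv_av (x : Fin 7 → Fin 7 → ℂ) (n : Option P → Option Q → ℤ) :
    gv x n = av (mon x n) := rfl

theorem av_congr {F G : (P → Fin 6) → (Q → Fin 6) → ℂ} (h : ∀ φ ψ, F φ ψ = G φ ψ) :
    av F = av G := by
  have : F = G := by funext φ ψ; exact h φ ψ
  rw [this]

theorem av_add (F G : (P → Fin 6) → (Q → Fin 6) → ℂ) :
    av (fun φ ψ => F φ ψ + G φ ψ) = av F + av G := by
  unfold av; simp only [Finset.sum_add_distrib, mul_add]

theorem av_sub (F G : (P → Fin 6) → (Q → Fin 6) → ℂ) :
    av (fun φ ψ => F φ ψ - G φ ψ) = av F - av G := by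
  unfold av; simp only [Finset.sum_sub_distrib, mul_sub]

theorem av_smul (z : ℂ) (F : (P → Fin 6) → (Q → Fin 6) → ℂ) :
    av (fun φ ψ => z * F φ ψ) = z * av F := by
  unfold av; simp only [← Finset.mul_sum]; ring

/-- the bracket. -/
noncomputable def gb (W : Fin 6 → Fin 6 → ℂ) (φ : P → Fin 6) (ψ : Q → Fin 6) :
    P ⊕ Q → P ⊕ Q → ℂ
  | .inl p, .inl p' => if φ p = φ p' then 6 else 0
  | .inl p, .inr q => s6 * W (φ p) (ψ q)
  | .inr q, .inl p => s6 * star (W (φ p) (ψ q))
  | .inr q, .inr q' => if ψ q = ψ q' then 6 else 0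

/-- rename the row vertex `p1` to `p0`. -/
def rnP (p0 p1 : P) : P ⊕ Q → P ⊕ Q
  | .inl p => .inl (if p = p1 then p0 else p)
  | .inr q => .inr q

/-- rename the column vertex `q1` to `q0`. -/
def rnQ (q0 q1 : Q) : P ⊕ Q → P ⊕ Q
  | .inl p => .inl p
  | .inr q => .inr (if q = q1 then q0 else q)

/-- change one entry. -/
def addE (n : Option P → Option Q → ℤ) (p : P) (q : Q) (ε : ℤ) : Option P → Option Q → ℤ :=
  fun a b => n a b + (if a = some p ∧ b = some q then ε else 0)

/-- merge the column vertex `q1` into `q0`. -/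
def mrgc (n : Option P → Option Q → ℤ) (q0 q1 : Q) : Option P → Option Q → ℤ :=
  fun p q => if q = some q1 then 0 else if q = some q0 then n p (some q0) + n p (some q1)
    else n p q

/-- contraction of a list of brackets: exponent of `√6` and resulting graph. -/
def red (f : P ⊕ Q → P ⊕ Q) :
    List ((P ⊕ Q) × (P ⊕ Q)) → (Option P → Option Q → ℤ) → ℕ × (Option P → Option Q → ℤ)
  | [], n => (0, n)
  | (v, w) :: L, n =>
    match f v, f w with
    | .inl p, .inl p' =>
      if p = p' then ((red f L n).1 + 2, (red f L n).2) else red (fun u => rnP p p' (f u)) L (mrg n p p')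
    | .inl p, .inr q => ((red f L (addE n p q 1)).1 + 1, (red f L (addE n p q 1)).2)
    | .inr q, .inl p => ((red f L (addE n p q (-1))).1 + 1, (red f L (addE n p q (-1))).2)
    | .inr q, .inr q' =>
      if q = q' then ((red f L n).1 + 2, (red f L n).2) else red (fun u => rnQ q q' (f u)) L (mrgc n q q')

/-- product of a list of brackets. -/
noncomputable def pb (W : Fin 6 → Fin 6 → ℂ) (f : P ⊕ Q → P ⊕ Q) (L : List ((P ⊕ Q) × (P ⊕ Q)))
    (φ : P → Fin 6) (ψ : Q → Fin 6) : ℂ :=
  (L.map fun u => gb W φ ψ (f u.1) (f u.2)).prod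

theorem pb_nil (W : Fin 6 → Fin 6 → ℂ) (f : P ⊕ Q → P ⊕ Q) (φ : P → Fin 6) (ψ : Q → Fin 6) :
    pb W f [] φ ψ = 1 := rfl

theorem pb_cons (W : Fin 6 → Fin 6 → ℂ) (f : P ⊕ Q → P ⊕ Q) (v w : P ⊕ Q)
    (L : List ((P ⊕ Q) × (P ⊕ Q))) (φ : P → Fin 6) (ψ : Q → Fin 6) :
    pb W f ((v, w) :: L) φ ψ = gb W φ ψ (f v) (f w) * pb W f L φ ψ := by
  unfold pb; simp

theorem mon_single (x : Fin 7 → Fin 7 → ℂ) (p : P) (q : Q) (ε : ℤ) (φ : P → Fin 6)
    (ψ : Q → Fin 6) :
    mon x (fun a b => if a = some p ∧ b = some q then ε else 0) φ ψ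
      = x (φ p).castSucc (ψ q).castSucc ^ ε := by
  unfold mon
  rw [Fintype.prod_eq_single (some p), Fintype.prod_eq_single (some q)]
  · simp
  · intro b hb
    beta_reduce
    rw [if_neg (fun h => hb h.2), zpow_zero]
  · intro a ha
    refine Finset.prod_eq_one fun b _ => ?_
    beta_reduce
    rw [if_neg (fun h => ha h.1), zpow_zero]

/-- all entries are unimodular. -/
def Uni (x : Fin 7 → Fin 7 → ℂ) : Prop := ∀ r c, x r c * star (x r c) = 1

theorem uni_of_base {x : Fin 7 → Fin 7 → ℂ} (h : Base x) : Uni x := h.unit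

theorem Uni.ne {x : Fin 7 → Fin 7 → ℂ} (h : Uni x) (r c : Fin 7) : x r c ≠ 0 := by
  intro h0; have := h r c; rw [h0] at this; simp at this

theorem Uni.inv {x : Fin 7 → Fin 7 → ℂ} (h : Uni x) (r c : Fin 7) :
    (x r c)⁻¹ = star (x r c) := by
  rw [inv_eq_of_mul_eq_one_right (h r c)]

theorem Uni.transpose {x : Fin 7 → Fin 7 → ℂ} (h : Uni x) : Uni (fun r c => x c r) :=
  fun r c => h c r

theorem Uni.mon_add {x : Fin 7 → Fin 7 → ℂ} (h : Uni x) (n m : Option P → Option Q → ℤ)
    (φ : P → Fin 6) (ψ : Q → Fin 6) :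
    mon x (fun p q => n p q + m p q) φ ψ = mon x n φ ψ * mon x m φ ψ := by
  unfold mon
  simp only [zpow_add₀ (h.ne _ _), Finset.prod_mul_distrib]

theorem prod_mrg' {x : Fin 7 → Fin 7 → ℂ} (h : Uni x) (c : Fin 7) (φ : P → Fin 6)
    (w w' : Option P → ℤ) (p0 p1 : P)
    (h01 : p0 ≠ p1) (hφ : φ p0 = φ p1) (h1 : w' (some p1) = 0)
    (h0 : w' (some p0) = w (some p0) + w (some p1))
    (hp : ∀ p, p ≠ some p0 → p ≠ some p1 → w' p = w p) :
    ∏ p, x (ex φ p) c ^ w p = ∏ p, x (ex φ p) c ^ w' p := by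
  have hm0 : (some p0 : Option P) ∈ (Finset.univ : Finset (Option P)) := Finset.mem_univ _
  have hm1 : (some p1 : Option P) ∈ (Finset.univ : Finset (Option P)).erase (some p0) := by
    simp [Ne.symm h01]
  rw [← Finset.mul_prod_erase _ _ hm0, ← Finset.mul_prod_erase _ _ hm1,
    ← Finset.mul_prod_erase _ (fun p => x (ex φ p) c ^ w' p) hm0,
    ← Finset.mul_prod_erase _ (fun p => x (ex φ p) c ^ w' p) hm1, ← mul_assoc, ← mul_assoc]
  congr 1
  · simp only [ex_some, h0, h1, hφ, zpow_zero, mul_one, zpow_add₀ (h.ne _ _)]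
  · refine Finset.prod_congr rfl fun p hp' => ?_
    have e1 := Finset.mem_erase.1 hp'
    have e2 := Finset.mem_erase.1 e1.2
    rw [hp p e2.1 e1.1]

variable {W : Fin 6 → Fin 6 → ℂ}

theorem mon_addE (h : Uni (m7 W)) (n : Option P → Option Q → ℤ) (p : P) (q : Q) (ε : ℤ)
    (φ : P → Fin 6) (ψ : Q → Fin 6) :
    mon (m7 W) (addE n p q ε) φ ψ = mon (m7 W) n φ ψ * W (φ p) (ψ q) ^ ε := by
  unfold addE
  rw [h.mon_add, mon_single, m7_cc]

theorem mon_mrg (h : Uni (m7 W)) (n : Option P → Option Q → ℤ) (p0 p1 : P) (h01 : p0 ≠ p1)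
    (φ : P → Fin 6) (ψ : Q → Fin 6) (hφ : φ p0 = φ p1) :
    mon (m7 W) n φ ψ = mon (m7 W) (mrg n p0 p1) φ ψ := by
  unfold mon
  rw [Finset.prod_comm, Finset.prod_comm (f := fun p q =>
    m7 W (ex φ p) (ex ψ q) ^ mrg n p0 p1 p q)]
  refine Finset.prod_congr rfl fun q _ => ?_
  refine prod_mrg' h _ φ (fun p => n p q) (fun p => mrg n p0 p1 p q) p0 p1 h01 hφ ?_ ?_ ?_
  · simp [mrg]
  · have : (some p0 : Option P) ≠ some p1 := by simpa using h01
    simp [mrg, h01]
  · intro p hp0 hp1
    simp [mrg, hp0, hp1]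

theorem mon_mrgc (h : Uni (m7 W)) (n : Option P → Option Q → ℤ) (q0 q1 : Q) (h01 : q0 ≠ q1)
    (φ : P → Fin 6) (ψ : Q → Fin 6) (hψ : ψ q0 = ψ q1) :
    mon (m7 W) n φ ψ = mon (m7 W) (mrgc n q0 q1) φ ψ := by
  unfold mon
  refine Finset.prod_congr rfl fun p _ => ?_
  have := prod_mrg' h.transpose (ex φ p) ψ (fun q => n p q) (fun q => mrgc n q0 q1 p q) q0 q1 h01 hψ
    (by simp [mrgc]) (by simp [mrgc, h01]) (by intro q hq0 hq1; simp [mrgc, hq0, hq1])
  exact this

theorem mon_update_row (x : Fin 7 → Fin 7 → ℂ) (n : Option P → Option Q → ℤ) (p1 : P)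
    (h : ∀ q, n (some p1) q = 0) (φ : P → Fin 6) (ψ : Q → Fin 6) (b : Fin 6) :
    mon x n (Function.update φ p1 b) ψ = mon x n φ ψ := by
  unfold mon
  refine Finset.prod_congr rfl fun p _ => Finset.prod_congr rfl fun q _ => ?_
  by_cases hp : p = some p1
  · rw [hp, h, zpow_zero, zpow_zero]
  · congr 2
    cases p with
    | none => rfl
    | some p => simp only [ex_some]; rw [Function.update_of_ne (by simpa using hp)]

theorem mon_update_col (x : Fin 7 → Fin 7 → ℂ) (n : Option P → Option Q → ℤ) (q1 : Q)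
    (h : ∀ p, n p (some q1) = 0) (φ : P → Fin 6) (ψ : Q → Fin 6) (b : Fin 6) :
    mon x n φ (Function.update ψ q1 b) = mon x n φ ψ := by
  unfold mon
  refine Finset.prod_congr rfl fun p _ => Finset.prod_congr rfl fun q _ => ?_
  by_cases hq : q = some q1
  · rw [hq, h, zpow_zero, zpow_zero]
  · congr 2
    cases q with
    | none => rfl
    | some q => simp only [ex_some]; rw [Function.update_of_ne (by simpa using hq)]

theorem gb_rnP (p0 p1 : P) (φ : P → Fin 6) (ψ : Q → Fin 6) (hφ : φ p0 = φ p1) (v w : P ⊕ Q) :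
    gb W φ ψ (rnP p0 p1 v) (rnP p0 p1 w) = gb W φ ψ v w := by
  have e : ∀ p : P, φ (if p = p1 then p0 else p) = φ p := by
    intro p; split_ifs with h
    · rw [hφ, h]
    · rfl
  rcases v with p | q <;> rcases w with p' | q' <;> simp only [rnP, gb, e]

theorem gb_rnQ (q0 q1 : Q) (φ : P → Fin 6) (ψ : Q → Fin 6) (hψ : ψ q0 = ψ q1) (v w : P ⊕ Q) :
    gb W φ ψ (rnQ q0 q1 v) (rnQ q0 q1 w) = gb W φ ψ v w := by
  have e : ∀ q : Q, ψ (if q = q1 then q0 else q) = ψ q := by
    intro q; split_ifs with h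
    · rw [hψ, h]
    · rfl
  rcases v with p | q <;> rcases w with p' | q' <;> simp only [rnQ, gb, e]

theorem gb_updP (p1 : P) (φ : P → Fin 6) (ψ : Q → Fin 6) (b : Fin 6) (v w : P ⊕ Q)
    (hv : v ≠ .inl p1) (hw : w ≠ .inl p1) :
    gb W (Function.update φ p1 b) ψ v w = gb W φ ψ v w := by
  rcases v with p | q <;> rcases w with p' | q'
  · have h1 : p ≠ p1 := fun h => hv (by rw [h])
    have h2 : p' ≠ p1 := fun h => hw (by rw [h])
    simp only [gb, Function.update_of_ne h1, Function.update_of_ne h2]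
  · have h1 : p ≠ p1 := fun h => hv (by rw [h])
    simp only [gb, Function.update_of_ne h1]
  · have h2 : p' ≠ p1 := fun h => hw (by rw [h])
    simp only [gb, Function.update_of_ne h2]
  · rfl

theorem gb_updQ (q1 : Q) (φ : P → Fin 6) (ψ : Q → Fin 6) (b : Fin 6) (v w : P ⊕ Q)
    (hv : v ≠ .inr q1) (hw : w ≠ .inr q1) :
    gb W φ (Function.update ψ q1 b) v w = gb W φ ψ v w := by
  rcases v with p | q <;> rcases w with p' | q'
  · rfl
  · have h2 : q' ≠ q1 := fun h => hw (by rw [h])
    simp only [gb, Function.update_of_ne h2]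
  · have h1 : q ≠ q1 := fun h => hv (by rw [h])
    simp only [gb, Function.update_of_ne h1]
  · have h1 : q ≠ q1 := fun h => hv (by rw [h])
    have h2 : q' ≠ q1 := fun h => hw (by rw [h])
    simp only [gb, Function.update_of_ne h1, Function.update_of_ne h2]

theorem rnP_ne (p0 p1 : P) (h : p0 ≠ p1) (v : P ⊕ Q) : rnP p0 p1 v ≠ .inl p1 := by
  rcases v with p | q
  · simp only [rnP]
    intro h'
    have h'' : (if p = p1 then p0 else p) = p1 := Sum.inl.inj h'
    split_ifs at h'' with hp
    · exact h h''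
    · exact hp h''
  · simp [rnP]

theorem rnQ_ne (q0 q1 : Q) (h : q0 ≠ q1) (v : P ⊕ Q) : rnQ q0 q1 v ≠ .inr q1 := by
  rcases v with p | q
  · simp [rnQ]
  · simp only [rnQ]
    intro h'
    have h'' : (if q = q1 then q0 else q) = q1 := Sum.inr.inj h'
    split_ifs at h'' with hp
    · exact h h''
    · exact hp h''

/-- **Contraction theorem.** -/
theorem red_spec (h : Uni (m7 W)) (L : List ((P ⊕ Q) × (P ⊕ Q))) :
    ∀ (f : P ⊕ Q → P ⊕ Q) (n : Option P → Option Q → ℤ),
      av (fun φ ψ => mon (m7 W) n φ ψ * pb W f L φ ψ)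
        = s6 ^ (red f L n).1 * gv (m7 W) (red f L n).2 := by
  induction L with
  | nil =>
    intro f n
    simp only [red, pb_nil, mul_one, pow_zero, one_mul]
    rfl
  | cons u L ih =>
    obtain ⟨v, w⟩ := u
    intro f n
    rcases hv : f v with p | q <;> rcases hw : f w with p' | q'
    · by_cases hp : p = p'
      · have e : red f ((v, w) :: L) n = ((red f L n).1 + 2, (red f L n).2) := by
          simp only [red, hv, hw, hp, if_true]
        rw [e]
        simp only
        rw [pow_add, mul_right_comm, ← ih f n, pow_two, s6_sq, mul_comm, ← av_smul]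
        refine av_congr fun φ ψ => ?_
        rw [pb_cons, hv, hw, hp]
        simp only [gb, if_true]
        ring
      · have e : red f ((v, w) :: L) n = red (fun u => rnP p p' (f u)) L (mrg n p p') := by
          simp only [red, hv, hw, hp, if_false]
        rw [e, ← ih]
        unfold av
        congr 1
        rw [Finset.sum_comm, Finset.sum_comm (f := fun φ ψ =>
          mon (m7 W) (mrg n p p') φ ψ * pb W (fun u => rnP p p' (f u)) L φ ψ)]
        refine Finset.sum_congr rfl fun ψ _ => ?_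
        have key := sum_ite_eq_avg (fun φ : P → Fin 6 =>
          mon (m7 W) (mrg n p p') φ ψ * pb W (fun u => rnP p p' (f u)) L φ ψ) p p' hp ?_
        · have key' : ∑ φ : P → Fin 6, mon (m7 W) (mrg n p p') φ ψ *
              pb W (fun u => rnP p p' (f u)) L φ ψ = 6 * ∑ φ : P → Fin 6, (if φ p = φ p' then
              mon (m7 W) (mrg n p p') φ ψ * pb W (fun u => rnP p p' (f u)) L φ ψ else 0) := by
            rw [key]; ring
          rw [key', Finset.mul_sum]
          refine Finset.sum_congr rfl fun φ _ => ?_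
          rw [pb_cons, hv, hw]
          simp only [gb]
          split_ifs with hφ
          · rw [mon_mrg h n p p' hp φ ψ hφ]
            have : pb W (fun u => rnP p p' (f u)) L φ ψ = pb W f L φ ψ := by
              unfold pb
              simp only [gb_rnP p p' φ ψ hφ]
            rw [this]; ring
          · ring
        · intro φ b
          rw [mon_update_row _ _ p' (by intro q; simp [mrg])]
          congr 1
          unfold pb
          simp only [gb_updP p' φ ψ b _ _ (rnP_ne p p' hp _) (rnP_ne p p' hp _)]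
    · have e : red f ((v, w) :: L) n
          = ((red f L (addE n p q' 1)).1 + 1, (red f L (addE n p q' 1)).2) := by
        simp only [red, hv, hw]
      rw [e]
      simp only
      rw [pow_succ, mul_right_comm, ← ih, mul_comm, ← av_smul]
      refine av_congr fun φ ψ => ?_
      rw [pb_cons, hv, hw, mon_addE h, zpow_one]
      simp only [gb]
      ring
    · have e : red f ((v, w) :: L) n
          = ((red f L (addE n p' q (-1))).1 + 1, (red f L (addE n p' q (-1))).2) := by
        simp only [red, hv, hw]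
      rw [e]
      simp only
      rw [pow_succ, mul_right_comm, ← ih, mul_comm, ← av_smul]
      refine av_congr fun φ ψ => ?_
      have hi := h.inv (φ p').castSucc (ψ q).castSucc
      rw [m7_cc] at hi
      rw [pb_cons, hv, hw, mon_addE h, zpow_neg_one, hi]
      simp only [gb]
      ring
    · by_cases hq : q = q'
      · have e : red f ((v, w) :: L) n = ((red f L n).1 + 2, (red f L n).2) := by
          simp only [red, hv, hw, hq, if_true]
        rw [e]
        simp only
        rw [pow_add, mul_right_comm, ← ih f n, pow_two, s6_sq, mul_comm, ← av_smul]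
        refine av_congr fun φ ψ => ?_
        rw [pb_cons, hv, hw, hq]
        simp only [gb, if_true]
        ring
      · have e : red f ((v, w) :: L) n = red (fun u => rnQ q q' (f u)) L (mrgc n q q') := by
          simp only [red, hv, hw, hq, if_false]
        rw [e, ← ih]
        unfold av
        congr 1
        refine Finset.sum_congr rfl fun φ _ => ?_
        have key := sum_ite_eq_avg (fun ψ : Q → Fin 6 =>
          mon (m7 W) (mrgc n q q') φ ψ * pb W (fun u => rnQ q q' (f u)) L φ ψ) q q' hq ?_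
        · have key' : ∑ ψ : Q → Fin 6, mon (m7 W) (mrgc n q q') φ ψ *
              pb W (fun u => rnQ q q' (f u)) L φ ψ = 6 * ∑ ψ : Q → Fin 6, (if ψ q = ψ q' then
              mon (m7 W) (mrgc n q q') φ ψ * pb W (fun u => rnQ q q' (f u)) L φ ψ else 0) := by
            rw [key]; ring
          rw [key', Finset.mul_sum]
          refine Finset.sum_congr rfl fun ψ _ => ?_
          beta_reduce
          rw [pb_cons, hv, hw]
          simp only [gb]
          split_ifs with hψ
          · rw [mon_mrgc h n q q' hq φ ψ hψ]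
            have : pb W (fun u => rnQ q q' (f u)) L φ ψ = pb W f L φ ψ := by
              unfold pb
              simp only [gb_rnQ q q' φ ψ hψ]
            rw [this]; ring
          · ring
        · intro ψ b
          rw [mon_update_col _ _ q' (by intro p; simp [mrgc])]
          congr 1
          unfold pb
          simp only [gb_updQ q' φ ψ b _ _ (rnQ_ne q q' hq _) (rnQ_ne q q' hq _)]

end Vale.Agent.P355.H41
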