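import Vale.Agent.P355.H138.Code
import Vale.Agent.P355.H349.Frame

/-! The flat unitary matrices attached to the thirty vectors, in the language of graph functions. -/

namespace Vale.Agent.P355.H41

open Finset Matrix Vale.Agent.P355.H138

open Vale.Agent.P355.H349 (Cfg Flat6 VV yy dl)

/-- extension of a `6 × 6` array by ones. -/
noncomputable def m7 (V : Fin 6 → Fin 6 → ℂ) : Fin 7 → Fin 7 → ℂ := fun r c =>
  Fin.lastCases (motive := fun _ => ℂ) 1
    (fun a => Fin.lastCases (motive := fun _ => ℂ) 1 (fun b => V a b) c) r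

@[simp] theorem m7_cc (V : Fin 6 → Fin 6 → ℂ) (a b : Fin 6) :
    m7 V a.castSucc b.castSucc = V a b := by
  unfold m7
  rw [Fin.lastCases_castSucc, Fin.lastCases_castSucc]

@[simp] theorem m7_l (V : Fin 6 → Fin 6 → ℂ) (c : Fin 7) : m7 V 6 c = 1 := by
  have h : (6 : Fin 7) = Fin.last 6 := rfl
  unfold m7
  rw [h, Fin.lastCases_last]

@[simp] theorem m7_r (V : Fin 6 → Fin 6 → ℂ) (r : Fin 7) : m7 V r 6 = 1 := by
  have h : (6 : Fin 7) = Fin.last 6 := rfl
  unfold m7
  rw [h]
  refine Fin.lastCases ?_ (fun a => ?_) r
  · rw [Fin.lastCases_last]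
  · rw [Fin.lastCases_castSucc, Fin.lastCases_last]

/-- the scaled matrix. -/
noncomputable def sc (V : M6) : Fin 6 → Fin 6 → ℂ := fun a b => H138.s6 * V a b

theorem base_of_flat {V : M6} (h : Flat6 V) : Base (m7 (sc V)) := by
  have hs := H138.s6_sq
  have hss := H138.star_s6
  have hcols : ∀ b b', ∑ a, V a b * star (V a b') = dl b b' := by
    have h1 : V * Vᴴ = 1 := by
      ext i j
      simp only [Matrix.mul_apply, Matrix.conjTranspose_apply, Matrix.one_apply]
      exact h.rows i j
    have h2 : Vᴴ * V = 1 := mul_eq_one_comm.1 h1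
    intro b b'
    have h3 := congrFun (congrFun h2 b') b
    simp only [Matrix.mul_apply, Matrix.conjTranspose_apply, Matrix.one_apply] at h3
    rw [H349.dl_symm]
    show _ = (if b' = b then (1 : ℂ) else 0)
    rw [← h3]
    exact Finset.sum_congr rfl fun a _ => by ring
  have hu : ∀ a b, sc V a b * star (sc V a b) = 1 := by
    intro a b
    unfold sc
    rw [star_mul', hss]
    linear_combination 6 * h.flat a b + (star (V a b) * V a b) * hs
  refine ⟨?_, ?_, ?_, ?_, ?_⟩
  · intro r c
    refine Fin.lastCases ?_ (fun a => ?_) r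
    · show m7 (sc V) 6 c * star (m7 (sc V) 6 c) = 1
      simp
    · refine Fin.lastCases ?_ (fun b => ?_) c
      · show m7 (sc V) _ 6 * star (m7 (sc V) _ 6) = 1
        simp
      · rw [m7_cc]; exact hu a b
  · intro a
    simp only [m7_cc]
    unfold sc
    rw [← Finset.mul_sum, h.rsum, mul_one]
  · intro b
    simp only [m7_cc]
    unfold sc
    rw [← Finset.mul_sum, h.csum, mul_one]
  · intro a a'
    simp only [m7_cc]
    have e : ∀ b, sc V a b * star (sc V a' b) = 6 * (V a b * star (V a' b)) := by
      intro b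
      unfold sc
      rw [star_mul', hss]
      linear_combination (V a b * star (V a' b)) * hs
    simp only [e, ← Finset.mul_sum, h.rows]
    unfold dl
    split_ifs <;> simp
  · intro b b'
    simp only [m7_cc]
    have e : ∀ a, sc V a b * star (sc V a b') = 6 * (V a b * star (V a b')) := by
      intro a
      unfold sc
      rw [star_mul', hss]
      linear_combination (V a b * star (V a b')) * hs
    simp only [e, ← Finset.mul_sum, hcols]
    unfold dl
    split_ifs <;> simp

end Vale.Agent.P355.H41
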